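import Vale.Agent.P236Qt.TauF
import Vale.Agent.P236Qt.TauZ

/-!
# P236, row PER: kernel checks of the extension
-/

namespace Vale.Agent.P236Q

open Vale.Agent.P236K Vale.Agent.P236E

theorem chk10 : chkT tauF tauZ 8 79 7 1 id (preOf tauFD 8) 10 = true := by
  decide +kernel

theorem chk11 : chkT tauF tauZ 8 79 7 1 id (preOf tauFD 8) 11 = true := by
  decide +kernel

theorem chk12 : chkT tauF tauZ 8 79 7 1 id (preOf tauFD 8) 12 = true := by
  decide +kernel

theorem chk13 : chkT tauF tauZ 8 79 7 1 id (preOf tauFD 8) 13 = true := by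
  decide +kernel

theorem chk14 : chkT tauF tauZ 8 79 7 1 id (preOf tauFD 8) 14 = true := by
  decide +kernel

theorem chk15 : chkT tauF tauZ 8 79 7 1 id (preOf tauFD 8) 15 = true := by
  decide +kernel

theorem chk16 : chkT tauF tauZ 8 79 7 1 id (preOf tauFD 8) 16 = true := by
  decide +kernel

theorem chk17 : chkT tauF tauZ 8 79 7 1 id (preOf tauFD 8) 17 = true := by
  decide +kernel

theorem chk18 : chkT tauF tauZ 8 79 7 1 id (preOf tauFD 8) 18 = true := by
  decide +kernel

theorem chk19 : chkT tauF tauZ 8 79 7 1 id (preOf tauFD 8) 19 = true := by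
  decide +kernel

end Vale.Agent.P236Q
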