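import Vale.Agent.P236Qt.TauF
import Vale.Agent.P236Qt.TauZ

/-!
# P236, row PER: kernel checks of the extension
-/

namespace Vale.Agent.P236Q

open Vale.Agent.P236K Vale.Agent.P236E

theorem chk100 : chkT tauF tauZ 8 79 7 1 id (preOf tauFD 8) 100 = true := by
  decide +kernel

end Vale.Agent.P236Q
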