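import Vale.Agent.P236Qt.TauF
import Vale.Agent.P236Qt.TauZ

/-!
# P236, row PER: kernel checks of the extension
-/

namespace Vale.Agent.P236Q

open Vale.Agent.P236K Vale.Agent.P236E

theorem chk20 : chkT tauF tauZ 8 79 7 1 id (preOf tauFD 8) 20 = true := by
  decide +kernel

theorem chk21 : chkT tauF tauZ 8 79 7 1 id (preOf tauFD 8) 21 = true := by
  decide +kernel

theorem chk22 : chkT tauF tauZ 8 79 7 1 id (preOf tauFD 8) 22 = true := by
  decide +kernel

theorem chk23 : chkT tauF tauZ 8 79 7 1 id (preOf tauFD 8) 23 = true := by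
  decide +kernel

theorem chk24 : chkT tauF tauZ 8 79 7 1 id (preOf tauFD 8) 24 = true := by
  decide +kernel

theorem chk25 : chkT tauF tauZ 8 79 7 1 id (preOf tauFD 8) 25 = true := by
  decide +kernel

theorem chk26 : chkT tauF tauZ 8 79 7 1 id (preOf tauFD 8) 26 = true := by
  decide +kernel

theorem chk27 : chkT tauF tauZ 8 79 7 1 id (preOf tauFD 8) 27 = true := by
  decide +kernel

theorem chk28 : chkT tauF tauZ 8 79 7 1 id (preOf tauFD 8) 28 = true := by
  decide +kernel

theorem chk29 : chkT tauF tauZ 8 79 7 1 id (preOf tauFD 8) 29 = true := by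
  decide +kernel

end Vale.Agent.P236Q
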