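import Vale.Agent.P236Qt.TauF
import Vale.Agent.P236Qt.TauZ

/-!
# P236, row PER: kernel checks of the extension
-/

namespace Vale.Agent.P236Q

open Vale.Agent.P236K Vale.Agent.P236E

theorem chk30 : chkT tauF tauZ 8 79 7 1 id (preOf tauFD 8) 30 = true := by
  decide +kernel

theorem chk31 : chkT tauF tauZ 8 79 7 1 id (preOf tauFD 8) 31 = true := by
  decide +kernel

theorem chk32 : chkT tauF tauZ 8 79 7 1 id (preOf tauFD 8) 32 = true := by
  decide +kernel

theorem chk33 : chkT tauF tauZ 8 79 7 1 id (preOf tauFD 8) 33 = true := by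
  decide +kernel

theorem chk34 : chkT tauF tauZ 8 79 7 1 id (preOf tauFD 8) 34 = true := by
  decide +kernel

theorem chk35 : chkT tauF tauZ 8 79 7 1 id (preOf tauFD 8) 35 = true := by
  decide +kernel

theorem chk36 : chkT tauF tauZ 8 79 7 1 id (preOf tauFD 8) 36 = true := by
  decide +kernel

theorem chk37 : chkT tauF tauZ 8 79 7 1 id (preOf tauFD 8) 37 = true := by
  decide +kernel

theorem chk38 : chkT tauF tauZ 8 79 7 1 id (preOf tauFD 8) 38 = true := by
  decide +kernel

theorem chk39 : chkT tauF tauZ 8 79 7 1 id (preOf tauFD 8) 39 = true := by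
  decide +kernel

end Vale.Agent.P236Q
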