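import Vale.Agent.P236Qt.TauF
import Vale.Agent.P236Qt.TauZ

/-!
# P236, row PER: kernel checks of the extension
-/

namespace Vale.Agent.P236Q

open Vale.Agent.P236K Vale.Agent.P236E

theorem chk40 : chkT tauF tauZ 8 79 7 1 id (preOf tauFD 8) 40 = true := by
  decide +kernel

theorem chk41 : chkT tauF tauZ 8 79 7 1 id (preOf tauFD 8) 41 = true := by
  decide +kernel

theorem chk42 : chkT tauF tauZ 8 79 7 1 id (preOf tauFD 8) 42 = true := by
  decide +kernel

theorem chk43 : chkT tauF tauZ 8 79 7 1 id (preOf tauFD 8) 43 = true := by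
  decide +kernel

theorem chk44 : chkT tauF tauZ 8 79 7 1 id (preOf tauFD 8) 44 = true := by
  decide +kernel

theorem chk45 : chkT tauF tauZ 8 79 7 1 id (preOf tauFD 8) 45 = true := by
  decide +kernel

theorem chk46 : chkT tauF tauZ 8 79 7 1 id (preOf tauFD 8) 46 = true := by
  decide +kernel

theorem chk47 : chkT tauF tauZ 8 79 7 1 id (preOf tauFD 8) 47 = true := by
  decide +kernel

theorem chk48 : chkT tauF tauZ 8 79 7 1 id (preOf tauFD 8) 48 = true := by
  decide +kernel

theorem chk49 : chkT tauF tauZ 8 79 7 1 id (preOf tauFD 8) 49 = true := by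
  decide +kernel

end Vale.Agent.P236Q
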