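import Vale.Agent.P236Qt.TauF
import Vale.Agent.P236Qt.TauZ

/-!
# P236, row PER: kernel checks of the extension
-/

namespace Vale.Agent.P236Q

open Vale.Agent.P236K Vale.Agent.P236E

theorem chk50 : chkT tauF tauZ 8 79 7 1 id (preOf tauFD 8) 50 = true := by
  decide +kernel

theorem chk51 : chkT tauF tauZ 8 79 7 1 id (preOf tauFD 8) 51 = true := by
  decide +kernel

theorem chk52 : chkT tauF tauZ 8 79 7 1 id (preOf tauFD 8) 52 = true := by
  decide +kernel

theorem chk53 : chkT tauF tauZ 8 79 7 1 id (preOf tauFD 8) 53 = true := by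
  decide +kernel

theorem chk54 : chkT tauF tauZ 8 79 7 1 id (preOf tauFD 8) 54 = true := by
  decide +kernel

theorem chk55 : chkT tauF tauZ 8 79 7 1 id (preOf tauFD 8) 55 = true := by
  decide +kernel

theorem chk56 : chkT tauF tauZ 8 79 7 1 id (preOf tauFD 8) 56 = true := by
  decide +kernel

theorem chk57 : chkT tauF tauZ 8 79 7 1 id (preOf tauFD 8) 57 = true := by
  decide +kernel

theorem chk58 : chkT tauF tauZ 8 79 7 1 id (preOf tauFD 8) 58 = true := by
  decide +kernel

theorem chk59 : chkT tauF tauZ 8 79 7 1 id (preOf tauFD 8) 59 = true := by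
  decide +kernel

end Vale.Agent.P236Q
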