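import Vale.Agent.P236Qt.TauF
import Vale.Agent.P236Qt.TauZ

/-!
# P236, row PER: kernel checks of the extension
-/

namespace Vale.Agent.P236Q

open Vale.Agent.P236K Vale.Agent.P236E

theorem chk60 : chkT tauF tauZ 8 79 7 1 id (preOf tauFD 8) 60 = true := by
  decide +kernel

theorem chk61 : chkT tauF tauZ 8 79 7 1 id (preOf tauFD 8) 61 = true := by
  decide +kernel

theorem chk62 : chkT tauF tauZ 8 79 7 1 id (preOf tauFD 8) 62 = true := by
  decide +kernel

theorem chk63 : chkT tauF tauZ 8 79 7 1 id (preOf tauFD 8) 63 = true := by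
  decide +kernel

theorem chk64 : chkT tauF tauZ 8 79 7 1 id (preOf tauFD 8) 64 = true := by
  decide +kernel

theorem chk65 : chkT tauF tauZ 8 79 7 1 id (preOf tauFD 8) 65 = true := by
  decide +kernel

theorem chk66 : chkT tauF tauZ 8 79 7 1 id (preOf tauFD 8) 66 = true := by
  decide +kernel

theorem chk67 : chkT tauF tauZ 8 79 7 1 id (preOf tauFD 8) 67 = true := by
  decide +kernel

theorem chk68 : chkT tauF tauZ 8 79 7 1 id (preOf tauFD 8) 68 = true := by
  decide +kernel

theorem chk69 : chkT tauF tauZ 8 79 7 1 id (preOf tauFD 8) 69 = true := by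
  decide +kernel

end Vale.Agent.P236Q
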