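import Vale.Agent.P236Qt.TauF
import Vale.Agent.P236Qt.TauZ

/-!
# P236, row PER: kernel checks of the extension
-/

namespace Vale.Agent.P236Q

open Vale.Agent.P236K Vale.Agent.P236E

theorem chk70 : chkT tauF tauZ 8 79 7 1 id (preOf tauFD 8) 70 = true := by
  decide +kernel

theorem chk71 : chkT tauF tauZ 8 79 7 1 id (preOf tauFD 8) 71 = true := by
  decide +kernel

theorem chk72 : chkT tauF tauZ 8 79 7 1 id (preOf tauFD 8) 72 = true := by
  decide +kernel

theorem chk73 : chkT tauF tauZ 8 79 7 1 id (preOf tauFD 8) 73 = true := by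
  decide +kernel

theorem chk74 : chkT tauF tauZ 8 79 7 1 id (preOf tauFD 8) 74 = true := by
  decide +kernel

theorem chk75 : chkT tauF tauZ 8 79 7 1 id (preOf tauFD 8) 75 = true := by
  decide +kernel

theorem chk76 : chkT tauF tauZ 8 79 7 1 id (preOf tauFD 8) 76 = true := by
  decide +kernel

theorem chk77 : chkT tauF tauZ 8 79 7 1 id (preOf tauFD 8) 77 = true := by
  decide +kernel

theorem chk78 : chkT tauF tauZ 8 79 7 1 id (preOf tauFD 8) 78 = true := by
  decide +kernel

theorem chk79 : chkT tauF tauZ 8 79 7 1 id (preOf tauFD 8) 79 = true := by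
  decide +kernel

end Vale.Agent.P236Q
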