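import Vale.Agent.P236Qt.TauF
import Vale.Agent.P236Qt.TauZ

/-!
# P236, row PER: kernel checks of the extension
-/

namespace Vale.Agent.P236Q

open Vale.Agent.P236K Vale.Agent.P236E

theorem chk80 : chkT tauF tauZ 8 79 7 1 id (preOf tauFD 8) 80 = true := by
  decide +kernel

theorem chk81 : chkT tauF tauZ 8 79 7 1 id (preOf tauFD 8) 81 = true := by
  decide +kernel

theorem chk82 : chkT tauF tauZ 8 79 7 1 id (preOf tauFD 8) 82 = true := by
  decide +kernel

theorem chk83 : chkT tauF tauZ 8 79 7 1 id (preOf tauFD 8) 83 = true := by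
  decide +kernel

theorem chk84 : chkT tauF tauZ 8 79 7 1 id (preOf tauFD 8) 84 = true := by
  decide +kernel

theorem chk85 : chkT tauF tauZ 8 79 7 1 id (preOf tauFD 8) 85 = true := by
  decide +kernel

theorem chk86 : chkT tauF tauZ 8 79 7 1 id (preOf tauFD 8) 86 = true := by
  decide +kernel

theorem chk87 : chkT tauF tauZ 8 79 7 1 id (preOf tauFD 8) 87 = true := by
  decide +kernel

theorem chk88 : chkT tauF tauZ 8 79 7 1 id (preOf tauFD 8) 88 = true := by
  decide +kernel

theorem chk89 : chkT tauF tauZ 8 79 7 1 id (preOf tauFD 8) 89 = true := by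
  decide +kernel

end Vale.Agent.P236Q
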