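import Vale.Agent.P236Qt.TauF
import Vale.Agent.P236Qt.TauZ

/-!
# P236, row PER: kernel checks of the extension
-/

namespace Vale.Agent.P236Q

open Vale.Agent.P236K Vale.Agent.P236E

theorem chk90 : chkT tauF tauZ 8 79 7 1 id (preOf tauFD 8) 90 = true := by
  decide +kernel

theorem chk91 : chkT tauF tauZ 8 79 7 1 id (preOf tauFD 8) 91 = true := by
  decide +kernel

theorem chk92 : chkT tauF tauZ 8 79 7 1 id (preOf tauFD 8) 92 = true := by
  decide +kernel

theorem chk93 : chkT tauF tauZ 8 79 7 1 id (preOf tauFD 8) 93 = true := by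
  decide +kernel

theorem chk94 : chkT tauF tauZ 8 79 7 1 id (preOf tauFD 8) 94 = true := by
  decide +kernel

theorem chk95 : chkT tauF tauZ 8 79 7 1 id (preOf tauFD 8) 95 = true := by
  decide +kernel

theorem chk96 : chkT tauF tauZ 8 79 7 1 id (preOf tauFD 8) 96 = true := by
  decide +kernel

theorem chk97 : chkT tauF tauZ 8 79 7 1 id (preOf tauFD 8) 97 = true := by
  decide +kernel

theorem chk98 : chkT tauF tauZ 8 79 7 1 id (preOf tauFD 8) 98 = true := by
  decide +kernel

theorem chk99 : chkT tauF tauZ 8 79 7 1 id (preOf tauFD 8) 99 = true := by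
  decide +kernel

end Vale.Agent.P236Q
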