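import Vale.Agent.P236Qt.Chk0
import Vale.Agent.P236Qt.Chk10
import Vale.Agent.P236Qt.Chk20
import Vale.Agent.P236Qt.Chk30
import Vale.Agent.P236Qt.Chk40
import Vale.Agent.P236Qt.Chk50
import Vale.Agent.P236Qt.Chk60
import Vale.Agent.P236Qt.Chk70
import Vale.Agent.P236Qt.Chk80
import Vale.Agent.P236Qt.Chk90
import Vale.Agent.P236Qt.Chk100

/-!
# P236, row PER: the full table
-/

namespace Vale.Agent.P236Q

open Vale.Agent.P236K Vale.Agent.P236E

theorem chkG_full : chkG tauF tauZ 7 1 = true := by
  decide +kernel

theorem chkT_full : ∀ T < 101, chkT tauF tauZ 8 79 7 1 id (preOf tauFD 8) T = true := by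
  intro T hT
  match T, hT with
  | 0, _ => exact chk0
  | 1, _ => exact chk1
  | 2, _ => exact chk2
  | 3, _ => exact chk3
  | 4, _ => exact chk4
  | 5, _ => exact chk5
  | 6, _ => exact chk6
  | 7, _ => exact chk7
  | 8, _ => exact chk8
  | 9, _ => exact chk9
  | 10, _ => exact chk10
  | 11, _ => exact chk11
  | 12, _ => exact chk12
  | 13, _ => exact chk13
  | 14, _ => exact chk14
  | 15, _ => exact chk15
  | 16, _ => exact chk16
  | 17, _ => exact chk17
  | 18, _ => exact chk18
  | 19, _ => exact chk19
  | 20, _ => exact chk20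
  | 21, _ => exact chk21
  | 22, _ => exact chk22
  | 23, _ => exact chk23
  | 24, _ => exact chk24
  | 25, _ => exact chk25
  | 26, _ => exact chk26
  | 27, _ => exact chk27
  | 28, _ => exact chk28
  | 29, _ => exact chk29
  | 30, _ => exact chk30
  | 31, _ => exact chk31
  | 32, _ => exact chk32
  | 33, _ => exact chk33
  | 34, _ => exact chk34
  | 35, _ => exact chk35
  | 36, _ => exact chk36
  | 37, _ => exact chk37
  | 38, _ => exact chk38
  | 39, _ => exact chk39
  | 40, _ => exact chk40
  | 41, _ => exact chk41
  | 42, _ => exact chk42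
  | 43, _ => exact chk43
  | 44, _ => exact chk44
  | 45, _ => exact chk45
  | 46, _ => exact chk46
  | 47, _ => exact chk47
  | 48, _ => exact chk48
  | 49, _ => exact chk49
  | 50, _ => exact chk50
  | 51, _ => exact chk51
  | 52, _ => exact chk52
  | 53, _ => exact chk53
  | 54, _ => exact chk54
  | 55, _ => exact chk55
  | 56, _ => exact chk56
  | 57, _ => exact chk57
  | 58, _ => exact chk58
  | 59, _ => exact chk59
  | 60, _ => exact chk60
  | 61, _ => exact chk61
  | 62, _ => exact chk62
  | 63, _ => exact chk63
  | 64, _ => exact chk64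
  | 65, _ => exact chk65
  | 66, _ => exact chk66
  | 67, _ => exact chk67
  | 68, _ => exact chk68
  | 69, _ => exact chk69
  | 70, _ => exact chk70
  | 71, _ => exact chk71
  | 72, _ => exact chk72
  | 73, _ => exact chk73
  | 74, _ => exact chk74
  | 75, _ => exact chk75
  | 76, _ => exact chk76
  | 77, _ => exact chk77
  | 78, _ => exact chk78
  | 79, _ => exact chk79
  | 80, _ => exact chk80
  | 81, _ => exact chk81
  | 82, _ => exact chk82
  | 83, _ => exact chk83
  | 84, _ => exact chk84
  | 85, _ => exact chk85
  | 86, _ => exact chk86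
  | 87, _ => exact chk87
  | 88, _ => exact chk88
  | 89, _ => exact chk89
  | 90, _ => exact chk90
  | 91, _ => exact chk91
  | 92, _ => exact chk92
  | 93, _ => exact chk93
  | 94, _ => exact chk94
  | 95, _ => exact chk95
  | 96, _ => exact chk96
  | 97, _ => exact chk97
  | 98, _ => exact chk98
  | 99, _ => exact chk99
  | 100, _ => exact chk100
  | n + 101, h => exact absurd h (by omega)

/-- **The full table describes the spectral sequence.** -/
theorem crd_tau {S : SS} (C : Crd tauZ S) : Nonempty (Crd tauF S) :=
  crd_of_direct (bnd_tabOf _ _ _ _ _ _ _) C chkG_full chkT_full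

end Vale.Agent.P236Q
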