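import Vale.Agent.P236Qt.TauF
import Vale.Agent.P236Qt.TauZ

/-!
# P236, row PER: kernel checks of the extension
-/

namespace Vale.Agent.P236Q

open Vale.Agent.P236K Vale.Agent.P236E

theorem chk0 : chkT tauF tauZ 8 79 7 1 id (preOf tauFD 8) 0 = true := by
  decide +kernel

theorem chk1 : chkT tauF tauZ 8 79 7 1 id (preOf tauFD 8) 1 = true := by
  decide +kernel

theorem chk2 : chkT tauF tauZ 8 79 7 1 id (preOf tauFD 8) 2 = true := by
  decide +kernel

theorem chk3 : chkT tauF tauZ 8 79 7 1 id (preOf tauFD 8) 3 = true := by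
  decide +kernel

theorem chk4 : chkT tauF tauZ 8 79 7 1 id (preOf tauFD 8) 4 = true := by
  decide +kernel

theorem chk5 : chkT tauF tauZ 8 79 7 1 id (preOf tauFD 8) 5 = true := by
  decide +kernel

theorem chk6 : chkT tauF tauZ 8 79 7 1 id (preOf tauFD 8) 6 = true := by
  decide +kernel

theorem chk7 : chkT tauF tauZ 8 79 7 1 id (preOf tauFD 8) 7 = true := by
  decide +kernel

theorem chk8 : chkT tauF tauZ 8 79 7 1 id (preOf tauFD 8) 8 = true := by
  decide +kernel

theorem chk9 : chkT tauF tauZ 8 79 7 1 id (preOf tauFD 8) 9 = true := by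
  decide +kernel

end Vale.Agent.P236Q
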